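import Vale.Agent.P219.Flat.Thirteen.Defs

/-!
# P219, dimension thirteen: the other rows are nonnegative on their boxes

The Bernstein coefficients are computed by the kernel.
-/

namespace Vale.Agent.P219.CH.Flat.Thirteen

open Vale.Agent.P219.Poly Vale.Agent.P219.Poly.E

theorem rim_0 : check (homSub (boxNum ![1, 0, 0] ![1, 1, 1]) (boxDen ![1, 1, 1]) rowRim) = true := by
  decide +kernel

theorem rim_1 : check (homSub (boxNum ![0, 0, 0] ![1, 1, 1]) (boxDen ![1, 1, 1]) rowRim) = true := by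
  decide +kernel

theorem rimTail_0 : check (homSub (tailNum ![0, 0, 0] ![1, 1, 1]) (tailDen ![1, 1, 1]) rowRim) = true := by
  decide +kernel

theorem sl2_0 : check (homSub (boxNum ![1, 0, 0] ![1, 1, 1]) (boxDen ![1, 1, 1]) rowSl2) = true := by
  decide +kernel

theorem sl2_1 : check (homSub (boxNum ![1, 0, 0] ![1, 1, 1]) (boxDen ![2, 1, 1]) rowSl2) = true := by
  decide +kernel

theorem sl2_2 : check (homSub (boxNum ![1, 0, 0] ![1, 1, 1]) (boxDen ![4, 1, 1]) rowSl2) = true := by
  decide +kernel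

theorem sl2_3 : check (homSub (boxNum ![1, 0, 0] ![1, 1, 1]) (boxDen ![8, 1, 1]) rowSl2) = true := by
  decide +kernel

theorem sl2_4 : check (homSub (boxNum ![0, 0, 0] ![1, 1, 1]) (boxDen ![8, 1, 1]) rowSl2) = true := by
  decide +kernel

theorem sl2Mid : check (homSub (boxNum ![2, 0, 0] ![2, 1, 1]) (boxDen ![1, 1, 1]) rowSl2) = true := by
  decide +kernel

theorem sl2Tail : check (homSub ![.k 4, .x 1, .x 2] ![.x 0, .k 1, .k 1] rowSl2) = true := by
  decide +kernel

theorem sl4_0 : check (homSub (boxNum ![1, 0, 0] ![1, 1, 1]) (boxDen ![1, 1, 1]) rowSl4) = true := by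
  decide +kernel

theorem sl4_1 : check (homSub (boxNum ![1, 0, 0] ![1, 1, 1]) (boxDen ![2, 1, 1]) rowSl4) = true := by
  decide +kernel

theorem sl4_2 : check (homSub (boxNum ![1, 0, 0] ![1, 1, 1]) (boxDen ![4, 1, 1]) rowSl4) = true := by
  decide +kernel

theorem sl4_3 : check (homSub (boxNum ![0, 0, 0] ![1, 1, 1]) (boxDen ![4, 1, 1]) rowSl4) = true := by
  decide +kernel

theorem sl4Mid : check (homSub (boxNum ![2, 0, 0] ![2, 1, 1]) (boxDen ![1, 1, 1]) rowSl4) = true := by
  decide +kernel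

theorem sl4Tail : check (homSub ![.k 4, .x 1, .x 2] ![.x 0, .k 1, .k 1] rowSl4) = true := by
  decide +kernel

theorem mono_0 : check (homSub (boxNum ![0, 0, 0] ![2, 1, 1]) (boxDen ![1, 1, 1]) rowMono) = true := by
  decide +kernel

theorem monoTail_0 : check (homSub (tailNum ![0, 0, 0] ![1, 1, 1]) (tailDen ![1, 1, 1]) rowMono) = true := by
  decide +kernel

theorem mix_0 : check (homSub (boxNum ![1, 0, 1] ![1, 1, 1]) (boxDen ![1, 1, 2]) rowMix) = true := by
  decide +kernel

theorem mix_1 : check (homSub (boxNum ![1, 0, 0] ![1, 1, 1]) (boxDen ![1, 1, 2]) rowMix) = true := by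
  decide +kernel

theorem mix_2 : check (homSub (boxNum ![3, 3, 1] ![1, 1, 1]) (boxDen ![4, 4, 2]) rowMix) = true := by
  decide +kernel

theorem mix_3 : check (homSub (boxNum ![2, 3, 1] ![1, 1, 1]) (boxDen ![4, 4, 2]) rowMix) = true := by
  decide +kernel

theorem mix_4 : check (homSub (boxNum ![1, 3, 0] ![1, 1, 1]) (boxDen ![2, 4, 2]) rowMix) = true := by
  decide +kernel

theorem mix_5 : check (homSub (boxNum ![0, 3, 0] ![1, 1, 1]) (boxDen ![2, 4, 1]) rowMix) = true := by
  decide +kernel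

theorem mix_6 : check (homSub (boxNum ![0, 2, 0] ![1, 1, 1]) (boxDen ![1, 4, 1]) rowMix) = true := by
  decide +kernel

theorem mix_7 : check (homSub (boxNum ![0, 0, 0] ![1, 1, 1]) (boxDen ![1, 2, 1]) rowMix) = true := by
  decide +kernel

theorem mixTail_0 : check (homSub (tailNum ![0, 0, 0] ![1, 1, 1]) (tailDen ![1, 1, 1]) rowMix) = true := by
  decide +kernel

theorem out_0 : check (homSub (boxNum ![1, 0, 0] ![1, 1, 1]) (boxDen ![1, 1, 1]) rowOut) = true := by
  decide +kernel

theorem out_1 : check (homSub (boxNum ![0, 0, 0] ![1, 1, 1]) (boxDen ![1, 1, 1]) rowOut) = true := by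
  decide +kernel

theorem outTail_0 : check (homSub (tailNum ![0, 0, 0] ![1, 1, 1]) (tailDen ![1, 1, 1]) rowOut) = true := by
  decide +kernel

theorem aRow_0 : check (homSub (boxNum ![0, 0, 0] ![1, 1, 1]) (boxDen ![1, 1, 1]) rowA) = true := by
  decide +kernel

end Vale.Agent.P219.CH.Flat.Thirteen
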