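import Vale.Agent.P219.Flat.Thirteen.Defs
import Vale.Agent.P219.Relax.Poly.FastCheck

/-!
# P219, dimension thirteen: the gain row is nonnegative on its boxes

The Bernstein coefficients are computed by the kernel.
-/

namespace Vale.Agent.P219.CH.Flat.Thirteen

open Vale.Agent.P219.Poly Vale.Agent.P219.Poly.E

theorem gain_0 : check (homSub (boxNum ![7, 3, 1] ![1, 1, 1]) (boxDen ![4, 4, 2]) rowGain) = true :=
  check_of_check2 (by decide +kernel)

theorem gain_1 : check (homSub (boxNum ![6, 3, 1] ![1, 1, 1]) (boxDen ![4, 4, 2]) rowGainB) = true :=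
  check_of_check2 (by decide +kernel)

theorem gain_1_sq : check (homSub (boxNum ![6, 3, 1] ![1, 1, 1]) (boxDen ![4, 4, 2]) rowGainX) = true :=
  check_of_check2 (by decide +kernel)

theorem gain_2 : check (homSub (boxNum ![3, 2, 1] ![1, 1, 1]) (boxDen ![2, 4, 2]) rowGain) = true :=
  check_of_check2 (by decide +kernel)

theorem gain_3 : check (homSub (boxNum ![2, 7, 3] ![1, 1, 1]) (boxDen ![2, 8, 4]) rowGainB) = true :=
  check_of_check2 (by decide +kernel)

theorem gain_3_sq : check (homSub (boxNum ![2, 7, 3] ![1, 1, 1]) (boxDen ![2, 8, 4]) rowGainX) = true :=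
  check_of_check2 (by decide +kernel)

theorem gain_4 : check (homSub (boxNum ![5, 15, 5] ![1, 1, 1]) (boxDen ![4, 16, 8]) rowGainB) = true :=
  check_of_check2 (by decide +kernel)

theorem gain_4_sq : check (homSub (boxNum ![5, 15, 5] ![1, 1, 1]) (boxDen ![4, 16, 8]) rowGainX) = true :=
  check_of_check2 (by decide +kernel)

theorem gain_5 : check (homSub (boxNum ![11, 15, 4] ![1, 1, 1]) (boxDen ![8, 16, 8]) rowGainB) = true :=
  check_of_check2 (by decide +kernel)

theorem gain_5_sq : check (homSub (boxNum ![11, 15, 4] ![1, 1, 1]) (boxDen ![8, 16, 8]) rowGainX) = true :=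
  check_of_check2 (by decide +kernel)

theorem gain_6 : check (homSub (boxNum ![10, 15, 4] ![1, 1, 1]) (boxDen ![8, 16, 8]) rowGainB) = true :=
  check_of_check2 (by decide +kernel)

theorem gain_6_sq : check (homSub (boxNum ![10, 15, 4] ![1, 1, 1]) (boxDen ![8, 16, 8]) rowGainX) = true :=
  check_of_check2 (by decide +kernel)

theorem gain_7 : check (homSub (boxNum ![5, 14, 2] ![1, 1, 1]) (boxDen ![4, 16, 4]) rowGainB) = true :=
  check_of_check2 (by decide +kernel)

theorem gain_7_sq : check (homSub (boxNum ![5, 14, 2] ![1, 1, 1]) (boxDen ![4, 16, 4]) rowGainX) = true :=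
  check_of_check2 (by decide +kernel)

theorem gain_8 : check (homSub (boxNum ![4, 7, 2] ![1, 1, 1]) (boxDen ![4, 8, 4]) rowGainB) = true :=
  check_of_check2 (by decide +kernel)

theorem gain_8_sq : check (homSub (boxNum ![4, 7, 2] ![1, 1, 1]) (boxDen ![4, 8, 4]) rowGainX) = true :=
  check_of_check2 (by decide +kernel)

theorem gain_9 : check (homSub (boxNum ![2, 6, 1] ![1, 1, 1]) (boxDen ![2, 8, 2]) rowGainB) = true :=
  check_of_check2 (by decide +kernel)

theorem gain_9_sq : check (homSub (boxNum ![2, 6, 1] ![1, 1, 1]) (boxDen ![2, 8, 2]) rowGainX) = true :=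
  check_of_check2 (by decide +kernel)

theorem gain_10 : check (homSub (boxNum ![2, 2, 1] ![1, 1, 1]) (boxDen ![2, 4, 2]) rowGain) = true :=
  check_of_check2 (by decide +kernel)

theorem gain_11 : check (homSub (boxNum ![3, 1, 0] ![1, 1, 1]) (boxDen ![2, 2, 2]) rowGainB) = true :=
  check_of_check2 (by decide +kernel)

theorem gain_11_sq : check (homSub (boxNum ![3, 1, 0] ![1, 1, 1]) (boxDen ![2, 2, 2]) rowGainX) = true :=
  check_of_check2 (by decide +kernel)

theorem gain_12 : check (homSub (boxNum ![5, 7, 0] ![1, 1, 1]) (boxDen ![4, 8, 2]) rowGainB) = true :=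
  check_of_check2 (by decide +kernel)

theorem gain_12_sq : check (homSub (boxNum ![5, 7, 0] ![1, 1, 1]) (boxDen ![4, 8, 2]) rowGainX) = true :=
  check_of_check2 (by decide +kernel)

theorem gain_13 : check (homSub (boxNum ![4, 7, 0] ![1, 1, 1]) (boxDen ![4, 8, 2]) rowGainB) = true :=
  check_of_check2 (by decide +kernel)

theorem gain_13_sq : check (homSub (boxNum ![4, 7, 0] ![1, 1, 1]) (boxDen ![4, 8, 2]) rowGainX) = true :=
  check_of_check2 (by decide +kernel)

theorem gain_14 : check (homSub (boxNum ![2, 6, 0] ![1, 1, 1]) (boxDen ![2, 8, 2]) rowGain) = true :=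
  check_of_check2 (by decide +kernel)

theorem gain_15 : check (homSub (boxNum ![2, 2, 0] ![1, 1, 1]) (boxDen ![2, 4, 2]) rowGain) = true :=
  check_of_check2 (by decide +kernel)

theorem gain_16 : check (homSub (boxNum ![1, 0, 0] ![1, 1, 1]) (boxDen ![1, 2, 1]) rowGain) = true :=
  check_of_check2 (by decide +kernel)

theorem gain_17 : check (homSub (boxNum ![0, 1, 0] ![1, 1, 1]) (boxDen ![1, 2, 1]) rowGainB) = true :=
  check_of_check2 (by decide +kernel)

theorem gain_17_sq : check (homSub (boxNum ![0, 1, 0] ![1, 1, 1]) (boxDen ![1, 2, 1]) rowGainX) = true :=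
  check_of_check2 (by decide +kernel)

theorem gain_18 : check (homSub (boxNum ![0, 0, 0] ![1, 1, 1]) (boxDen ![1, 2, 1]) rowGain) = true :=
  check_of_check2 (by decide +kernel)

theorem gainTail_0 : check (homSub (tailNum ![0, 0, 0] ![1, 1, 1]) (tailDen ![1, 1, 1]) rowGain) = true :=
  check_of_check2 (by decide +kernel)

end Vale.Agent.P219.CH.Flat.Thirteen
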