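import Vale.Agent.P219.Flat.Thirteen.Defs

/-!
# P219, dimension thirteen: the pair rows are nonnegative on their boxes

The Bernstein coefficients are computed by the kernel.
-/

namespace Vale.Agent.P219.CH.Flat.Thirteen

open Vale.Agent.P219.Poly Vale.Agent.P219.Poly.E

theorem q_0 : check (homSub (boxNum ![0, 0, 0] ![2, 1, 1]) (boxDen ![1, 1, 1]) rowQ0) = true := by
  decide +kernel

theorem qTail_0 : check (homSub (tailNum ![0, 0, 0] ![1, 1, 1]) (tailDen ![1, 1, 1]) rowQ0) = true := by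
  decide +kernel

theorem lo_0 : check (homSub (boxNum ![1, 0, 0] ![1, 1, 1]) (boxDen ![1, 2, 1]) rowLo) = true := by
  decide +kernel

theorem lo_1 : check (homSub (boxNum ![0, 1, 0] ![1, 1, 1]) (boxDen ![1, 4, 1]) rowLo) = true := by
  decide +kernel

theorem lo_2 : check (homSub (boxNum ![0, 0, 0] ![1, 1, 1]) (boxDen ![1, 4, 1]) rowLo) = true := by
  decide +kernel

theorem loTail_0 : check (homSub (tailNum ![0, 0, 0] ![1, 1, 1]) (tailDen ![1, 2, 1]) rowLo) = true := by
  decide +kernel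

theorem hi_0 : check (homSub (boxNum ![9, 1, 0] ![3, 1, 1]) (boxDen ![8, 2, 1]) rowHi) = true := by
  decide +kernel

theorem hi_1 : check (homSub (boxNum ![6, 1, 0] ![3, 1, 1]) (boxDen ![8, 2, 1]) rowHi) = true := by
  decide +kernel

theorem hi_2 : check (homSub (boxNum ![0, 1, 0] ![3, 1, 1]) (boxDen ![4, 2, 1]) rowHi) = true := by
  decide +kernel

theorem hi_3 : check (homSub (boxNum ![3, 2, 0] ![1, 1, 1]) (boxDen ![2, 4, 1]) rowHi) = true := by
  decide +kernel

theorem hi_4 : check (homSub (boxNum ![7, 7, 0] ![1, 1, 1]) (boxDen ![4, 8, 1]) rowG0) = true := by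
  decide +kernel

theorem hi_5 : check (homSub (boxNum ![7, 6, 0] ![1, 1, 1]) (boxDen ![4, 8, 1]) rowHi) = true := by
  decide +kernel

theorem hi_6 : check (homSub (boxNum ![6, 3, 0] ![1, 1, 1]) (boxDen ![4, 4, 1]) rowHi) = true := by
  decide +kernel

theorem hiTail_0 : check (homSub (tailNum ![0, 1, 0] ![1, 1, 1]) (tailDen ![1, 2, 1]) rowHi) = true := by
  decide +kernel

end Vale.Agent.P219.CH.Flat.Thirteen
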