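import Vale.Agent.P219.Flat.Thirteen.Facts
import Vale.Agent.P219.Gen.Law
import Vale.Agent.P219.Flat.Assembly

/-!
# P219, dimension thirteen: the value, and the certificate

The cosine has density proportional to `(1 - c ^ 2) ^ 5`, so both integrals are of polynomials.
-/

noncomputable section

open MeasureTheory Set

namespace Vale.Agent.P219.CH.Flat.Thirteen

open Gen Gen.Law

/-- The antiderivative of the value. -/
def valPoly (c : ℝ) : ℝ :=
  (31973 / 1152 : ℝ) * c ^ 3 +
  (-21999501789683 / 284564183040 : ℝ) * c ^ 5 +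
  (-291919 / 5612 : ℝ) * c ^ 6 +
  (144969244315681 / 331991546880 : ℝ) * c ^ 7 +
  (-3401557 / 11224 : ℝ) * c ^ 8 +
  (-81403292040625 / 56912836608 : ℝ) * c ^ 9 +
  (3510548 / 1403 : ℝ) * c ^ 10 +
  (234848150288809 / 156510300672 : ℝ) * c ^ 11 +
  (-8896931 / 1464 : ℝ) * c ^ 12 +
  (367437514724633 / 246622291968 : ℝ) * c ^ 13 +
  (269394645 / 39284 : ℝ) * c ^ 14 +
  (-726838054909211 / 142282091520 : ℝ) * c ^ 15 +
  (-37088067 / 11224 : ℝ) * c ^ 16 +
  (1415455768844917 / 284564183040 : ℝ) * c ^ 17 +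
  (-5397373 / 25254 : ℝ) * c ^ 18 +
  (-26184424513 / 12350876 : ℝ) * c ^ 19 +
  (9115375 / 11224 : ℝ) * c ^ 20 +
  (5444344 / 19667 : ℝ) * c ^ 21 +
  (-298417 / 1342 : ℝ) * c ^ 22 +
  (9384 / 277 : ℝ) * c ^ 23

/-- The total of the density. -/
theorem integral_dens : ∫ c in (-1 : ℝ)..1, (1 - c ^ 2) ^ 5 = 512 / 693 := by
  have hd : ∀ t ∈ uIcc (-1 : ℝ) 1, HasDerivAt
      (fun c : ℝ => c - 5 / 3 * c ^ 3 + 2 * c ^ 5 - 10 / 7 * c ^ 7 + 5 / 9 * c ^ 9 - 1 / 11 * c ^ 11)
      ((1 - t ^ 2) ^ 5) t := by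
    intro t _
    refine (((((hasDerivAt_id t).sub ((hasDerivAt_pow 3 t).const_mul (5 / 3))).add
      ((hasDerivAt_pow 5 t).const_mul 2)).sub ((hasDerivAt_pow 7 t).const_mul (10 / 7))).add
      ((hasDerivAt_pow 9 t).const_mul (5 / 9))).sub
      ((hasDerivAt_pow 11 t).const_mul (1 / 11)) |>.congr_deriv ?_
    push_cast
    ring
  rw [intervalIntegral.integral_eq_sub_of_hasDerivAt hd
    ((by fun_prop : Continuous fun c : ℝ => (1 - c ^ 2) ^ 5).intervalIntegrable _ _)]
  norm_num

theorem value_thirteen : Gen.cmean 13 (fun c => -aCoef c) = beta / (13 : ℕ) - 1 := by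
  have hm : Measurable fun c => -aCoef c := by unfold aCoef; fun_prop
  have hc : ContinuousOn (fun c => -aCoef c) (Icc 0 1) :=
    Continuous.continuousOn (by unfold aCoef; fun_prop)
  obtain ⟨B, hB⟩ := isCompact_Icc.bddAbove_image hc
  have h : Gen.cmean 13 (fun c => -aCoef c) * (∫ c in (-1 : ℝ)..1, (1 - c ^ 2) ^ 5) =
      ∫ c in (0 : ℝ)..1, -aCoef c * (1 - c ^ 2) ^ 5 :=
    cmean_eq 5 hm hc (B := B) fun c hc' => ⟨neg_nonneg.2 (aCoef_nonpos hc'), hB ⟨c, hc', rfl⟩⟩
  have hd : ∀ t ∈ uIcc (0 : ℝ) 1, HasDerivAt valPoly (-aCoef t * (1 - t ^ 2) ^ 5) t := by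
    intro t _
    unfold valPoly
    refine (((((((((((((((((((((hasDerivAt_pow 3 t).const_mul (31973 / 1152 : ℝ)).add
        ((hasDerivAt_pow 5 t).const_mul (-21999501789683 / 284564183040 : ℝ))).add
        ((hasDerivAt_pow 6 t).const_mul (-291919 / 5612 : ℝ))).add
        ((hasDerivAt_pow 7 t).const_mul (144969244315681 / 331991546880 : ℝ))).add
        ((hasDerivAt_pow 8 t).const_mul (-3401557 / 11224 : ℝ))).add
        ((hasDerivAt_pow 9 t).const_mul (-81403292040625 / 56912836608 : ℝ))).add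
        ((hasDerivAt_pow 10 t).const_mul (3510548 / 1403 : ℝ))).add
        ((hasDerivAt_pow 11 t).const_mul (234848150288809 / 156510300672 : ℝ))).add
        ((hasDerivAt_pow 12 t).const_mul (-8896931 / 1464 : ℝ))).add
        ((hasDerivAt_pow 13 t).const_mul (367437514724633 / 246622291968 : ℝ))).add
        ((hasDerivAt_pow 14 t).const_mul (269394645 / 39284 : ℝ))).add
        ((hasDerivAt_pow 15 t).const_mul (-726838054909211 / 142282091520 : ℝ))).add
        ((hasDerivAt_pow 16 t).const_mul (-37088067 / 11224 : ℝ))).add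
        ((hasDerivAt_pow 17 t).const_mul (1415455768844917 / 284564183040 : ℝ))).add
        ((hasDerivAt_pow 18 t).const_mul (-5397373 / 25254 : ℝ))).add
        ((hasDerivAt_pow 19 t).const_mul (-26184424513 / 12350876 : ℝ))).add
        ((hasDerivAt_pow 20 t).const_mul (9115375 / 11224 : ℝ))).add
        ((hasDerivAt_pow 21 t).const_mul (5444344 / 19667 : ℝ))).add
        ((hasDerivAt_pow 22 t).const_mul (-298417 / 1342 : ℝ))).add
        ((hasDerivAt_pow 23 t).const_mul (9384 / 277 : ℝ))).congr_deriv ?_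
    unfold aCoef den
    push_cast
    ring
  rw [integral_dens, intervalIntegral.integral_eq_sub_of_hasDerivAt hd
    ((by unfold aCoef; fun_prop :
      Continuous fun c : ℝ => -aCoef c * (1 - c ^ 2) ^ 5).intervalIntegrable _ _)] at h
  refine mul_right_cancel₀ (b := (512 / 693 : ℝ)) (by norm_num) (h.trans ?_)
  norm_num [valPoly, beta]

/-- The certificate of the sharp constant in dimension thirteen. -/
theorem cert_thirteen : Cert 13 aCoef beta :=
  Quart.cert_of_profile (by norm_num) smooth_prof facts (by norm_num [beta])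
    (by unfold aCoef; fun_prop) (fun _ hc => aCoef_nonpos hc)
    (by
      obtain ⟨B, hB⟩ := isCompact_Icc.bddAbove_image (f := fun c => -aCoef c)
        (Continuous.continuousOn (by unfold aCoef; fun_prop) : ContinuousOn _ (Icc (0 : ℝ) 1))
      exact ⟨B, fun c hc => neg_le.2 (hB ⟨c, hc, rfl⟩)⟩)
    value_thirteen

/-- The sharp inequality in dimension thirteen. -/
theorem sharp_thirteen : Gen.SharpDim 13 := sharpDim_of_cert 13 (by norm_num) cert_thirteen

/-- The strict certificate in dimension thirteen. -/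
theorem strict_thirteen : Strict.StrictAt 13 aCoef beta slack :=
  Quart.strictAt_of_profile (by norm_num) smooth_prof facts slack_pos margins cert_thirteen

end Vale.Agent.P219.CH.Flat.Thirteen
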