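import Vale.Agent.P219.Flat.Subst

/-!
# P219, dimension thirteen: the profile and its rows as integer expressions

`u (r, c) = (P0 r + c ^ 2 P2 r + c ^ 4 P4 r) / r ^ 8`; every number below is the rational one times
`den`. The tangency equation at the contact makes the pair row `(r - 2 m) ^ 2 Q + δ ^ 2 G` at the
cosines `m - δ` and `m + δ`; `rowQ` and `rowG` are these two factors,
less the slack; the other rows of the kernel are less `margin r ^ 9` too.
-/

noncomputable section

namespace Vale.Agent.P219.CH.Flat.Thirteen

open Poly (E)

/-- The common denominator. -/
def den : ℤ := 25551587123527680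

/-- The slack of the strict rows, times `2 den`. -/
def margin : ℤ := 12476360900160

/-- Horner form with integer coefficients, lowest first. -/
def horner : List ℤ → E → E
  | [], _ => .k 0
  | [z], _ => .k z
  | z :: l, r => .add (.k z) (.mul r (horner l r))

/-- Horner form with expression coefficients, lowest first. -/
def hornerE : List E → E → E
  | [], _ => .k 0
  | [p], _ => p
  | p :: l, r => .add p (.mul r (hornerE l r))

/-- The coefficients of `den * P0`. -/
def z0 : List ℤ := [44322965228979520, 0, 33724547869815885, -41534845874426880, 183404332484511840, -171908024153140800, 98009804892902400, -18463786949197440, 2122512747505920]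

/-- Those of its derivative. -/
def dz0 : List ℤ := [0, 67449095739631770, -124604537623280640, 733617329938047360, -859540120765704000, 588058829357414400, -129246508644382080, 16980101980047360]

/-- The coefficients of `den * P2`. -/
def z2 : List ℤ := [-20944679078800108, 249209075246561280, -930486995933932800, 915215930192136960, -487875616639856640, 114632803950670080, -10180710494530560]

/-- Those of its derivative. -/
def dz2 : List ℤ := [249209075246561280, -1860973991867865600, 2745647790576410880, -1951502466559426560, 573164019753350400, -61084262967183360]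

/-- The coefficients of `den * P4`. -/
def z4 : List ℤ := [-18465014132236800, 72063460559324160]

/-- Those of its derivative. -/
def dz4 : List ℤ := [72063460559324160]

/-- The coefficients of `den` times the marginal coefficient over the cosine. -/
def za : List ℤ := [0, -2127502330991016960, 0, -760615331459005120, 7974690407889960960, -60630523660946626112, 101822974520665374720, 12099909650977751040, -209976814606904524800, 248086440990065295360, -125000458600684584960, 19909206325073018880]

/-- `den` times the numerator of the profile. -/
def rowN (R C : E) : E :=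
  .add (horner z0 R) (.add (.mul (.pow C 2) (horner z2 R)) (.mul (.pow C 4) (horner z4 R)))

/-- `den` times its derivative. -/
def rowDN (R C : E) : E :=
  .add (horner dz0 R) (.add (.mul (.pow C 2) (horner dz2 R)) (.mul (.pow C 4) (horner dz4 R)))

/-- `den` times its derivative in the square of the cosine. -/
def rowDC (R C : E) : E := .add (horner z2 R) (.mul (.k 2) (.mul (.pow C 2) (horner z4 R)))

/-- `2 den` times the kernel without its angular part. -/
def rowBase (R C D : E) : E :=
  .add (.add
    (.mul (.k 2) (.mul (.add (.k 1) (.neg (.pow D 2)))
      (.add (.mul R (rowDN R C)) (.mul (.k (-8)) (rowN R C)))))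
    (.mul (.k 2) (.mul (.add (.k 11) (.pow D 2)) (rowN R C))))
    (.mul (.k (-24)) (.mul D (.mul R (rowN R C))))

/-- `2 den` times the kernel. -/
def rowKer (R C D AC AD : E) : E :=
  .add (rowBase R C D) (.mul (.mul (.k 2) (.mul AC (.mul (rowDC R C) AD)))
    (.add (.k 2) (.neg (.add (.pow C 2) (.pow D 2)))))

/-- `2 den` times the symmetrised kernel. -/
def rowSym (R C D AC AD : E) : E :=
  .add (.mul (.k 102206348494110720) (.pow R 9)) (.add (rowKer R C D AC AD) (rowKer R D C AD AC))

/-- `2 den` times the kernel and the gain without the angular part, at two inward cosines. -/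
def rowB (R C D : E) : E :=
  .add
  (.add (.add (.mul (.k 102206348494110720) (.pow R 9)) (.add (rowBase R C D) (rowBase R D C)))
    (.mul (.k 4) (.mul (.mul C D) (rowN R D))))
  (.neg (.mul (.k margin) (.pow R 9)))

/-- `4 den ^ 2` times the square of the first part less the square of the angular part. -/
def rowX (R C D : E) : E :=
  .add (.pow (rowB R C D) 2)
    (.neg (.mul (.mul (.k 16) (.pow (.mul (.mul C D) (.add (rowDC R C) (rowDC R D))) 2))
      (.mul (.add (.k 1) (.neg (.pow C 2))) (.add (.k 1) (.neg (.pow D 2))))))

/-- The gain at the cosines `d z` and `d`, the sines bounded by their mean square. -/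
def rowGain : E :=
  .add
  (.add (rowSym (.x 0) (.mul (.x 1) (.x 2)) (.x 1) (.mul (.x 1) (.x 2)) (.x 1))
    (.mul (.k 4) (.mul (.mul (.mul (.x 1) (.x 2)) (.x 1)) (rowN (.x 0) (.x 1)))))
  (.neg (.mul (.k margin) (.pow (.x 0) 9)))

/-- The first part there. -/
def rowGainB : E := rowB (.x 0) (.mul (.x 1) (.x 2)) (.x 1)

/-- The difference of the squares there. -/
def rowGainX : E := rowX (.x 0) (.mul (.x 1) (.x 2)) (.x 1)

/-- An inward and an outward cosine. -/
def rowMix : E :=
  .add
  (.add (rowSym (.x 0) (.x 1) (.neg (.x 2)) (.x 1) (.x 2))
    (.mul (.k (-4)) (.mul (.mul (.x 1) (.x 2)) (horner z0 (.x 0)))))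
  (.neg (.mul (.k margin) (.pow (.x 0) 9)))

/-- Two outward cosines. -/
def rowOut : E :=
  .add (rowSym (.x 0) (.neg (.x 1)) (.neg (.x 2)) (.x 1) (.x 2))
    (.neg (.mul (.k margin) (.pow (.x 0) 9)))

/-- The weight at the rim. -/
def rowRim : E := rowN (.x 0) (.k 1)

/-- The slope at the centre. -/
def rowSl2 : E := .neg (horner z2 (.x 0))

/-- The slope at the rim. -/
def rowSl4 : E := .neg (rowDC (.x 0) (.k 1))

/-- The growth of `r ^ 3 P0`. -/
def rowMono : E := .add (.mul (.x 0) (horner dz0 (.x 0))) (.mul (.k 3) (horner z0 (.x 0)))

/-- The sign of the marginal coefficient. -/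
def rowA : E := .neg (horner za (.x 1))

/-- The contact factor of the pair row. -/
def rowQ (R M : E) : E :=
  .add (hornerE [
    horner [0, 531875582747754240, 0, 674490957396317700, -996836300986245120, 5135321309566331520, -5501056772900505600, 3528352976144486400, -738551477967897600, 93390560890260480, 102206348494110720] R,
    horner [2127502330991016960, 0, 570461498594253840, -3987345203944980480, 18922506940514163600, -20010554489629532160, 5310003945321377280, 5297379247479168000, -4330908391298273280, 1295087167537920000, -101880611880284160] R,
    horner [0, 760615331459005120, -5981017805917470720, 30039393977996054700, -29747917401753968640, -6768831672637038720, 25978506673364812800, -16969029411798650880, 4623812980581657600, -399032396531112960, 0] R,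
    horner [760615331459005120, -7974690407889960960, 45472892745709969584, -50911487260332687360, -3651966667004889600, 38794145054320005120, -27134454483288391680, 7812528662542786560, -699933034865848320, 0, 0] R,
    horner [-7974690407889960960, 60630523660946626112, -76367230890499031040, -6142279896150059520, 65906008406894960640, -46516207685637242880, 13671925159449876480, -1244325395317063680, 0, 0, 0] R,
    horner [60630523660946626112, -101822974520665374720, -9074932238233313280, 104988407303452262400, -77527012809395404800, 23437585987628359680, -2177569441804861440, 0, 0, 0, 0] R,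
    horner [-101822974520665374720, -12099909650977751040, 157482610955178393600, -124043220495032647680, 39062643312713932800, -3732976185951191040, 0, 0, 0, 0, 0] R,
    horner [-12099909650977751040, 209976814606904524800, -186064830742548971520, 62500229300342292480, -6221626976585318400, 0, 0, 0, 0, 0, 0] R,
    horner [209976814606904524800, -248086440990065295360, 93750343950513438720, -9954603162536509440, 0, 0, 0, 0, 0, 0, 0] R,
    horner [-248086440990065295360, 125000458600684584960, -14931904743804764160, 0, 0, 0, 0, 0, 0, 0, 0] R,
    horner [125000458600684584960, -19909206325073018880, 0, 0, 0, 0, 0, 0, 0, 0, 0] R,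
    horner [-19909206325073018880, 0, 0, 0, 0, 0, 0, 0, 0, 0, 0] R] M)
    (.neg (.mul (.k margin) (.pow R 10)))

/-- The factor of the squared half difference of the cosines. -/
def rowG (R M S : E) : E :=
  .add (hornerE [
    hornerE [horner [0, 6382506992973050880, 0, 1511848031928062288, 1993672601972490240, -10221556610852348820, 13646618582087946240, -6089425683106896000, 658908365829120, 891057764867973120, -147710295593579520, 8490050990023680] R,
      horner [-8510009323964067840, 0, 0, 0, -1005344595782405184, 11962035611834941440, -44663375804828774400, 43930364649222574080, -23418029598713118720, 5502374589632163840, -488674103737466880, 0] R,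
      horner [0, 0, 0, 178535876152558176, -9031288602084802560, 52107271772300236800, -43930364649222574080, 19515024665594265600, -3668249726421442560, 244337051868733440, 0, 0] R,
      horner [6084922651672040960, 0, 0, 0, 1772641356694732800, -6918092213695119360, 0, 0, 0, 0, 0, 0] R,
      horner [-159493808157799219200, 0, 0, 960180734876313600, -3459046106847559680, 0, 0, 0, 0, 0, 0, 0] R,
      horner [2182698851794078540032, 0, 0, 0, 0, 0, 0, 0, 0, 0, 0, 0] R,
      horner [-5702086573157260984320, 0, 0, 0, 0, 0, 0, 0, 0, 0, 0, 0] R,
      horner [-967992772078220083200, 0, 0, 0, 0, 0, 0, 0, 0, 0, 0, 0] R,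
      horner [22677495977545688678400, 0, 0, 0, 0, 0, 0, 0, 0, 0, 0, 0] R,
      horner [-34732101738609141350400, 0, 0, 0, 0, 0, 0, 0, 0, 0, 0, 0] R,
      horner [22000080713720486952960, 0, 0, 0, 0, 0, 0, 0, 0, 0, 0, 0] R,
      horner [-4300388566215772078080, 0, 0, 0, 0, 0, 0, 0, 0, 0, 0, 0] R] M,
    hornerE [horner [0, 0, 0, -847705822938257552, 9968363009862451200, -33497531853621580800, 29286909766148382720, -13660517265915985920, 2751187294816081920, -203614209890611200] R,
      horner [-9127383977508061440, 0, 0, 0, -2658962035042099200, 10377138320542679040, 0, 0, 0, 0] R,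
      horner [159493808157799219200, 0, 0, 369300282644736000, -1153015368949186560, 0, 0, 0, 0, 0] R,
      horner [-1212610473218932522240, 0, 0, 0, 0, 0, 0, 0, 0, 0] R,
      horner [0, 0, 0, 0, 0, 0, 0, 0, 0, 0] R,
      horner [-677594940454754058240, 0, 0, 0, 0, 0, 0, 0, 0, 0] R,
      horner [35276104853959960166400, 0, 0, 0, 0, 0, 0, 0, 0, 0] R,
      horner [-89311118756423506329600, 0, 0, 0, 0, 0, 0, 0, 0, 0] R,
      horner [82500302676451826073600, 0, 0, 0, 0, 0, 0, 0, 0, 0] R,
      horner [-21900126957580320768000, 0, 0, 0, 0, 0, 0, 0, 0, 0] R] M,
    hornerE [horner [31898761631559843840, 0, 0, -960180734876313600, 3459046106847559680] R,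
      horner [-1212610473218932522240, 0, 0, 0, 0] R,
      horner [5702086573157260984320, 0, 0, 0, 0] R,
      horner [1355189880909508116480, 0, 0, 0, 0] R,
      horner [-35276104853959960166400, 0, 0, 0, 0] R,
      horner [41678522086330969620480, 0, 0, 0, 0] R,
      horner [0, 0, 0, 0, 0] R,
      horner [-10512060939638553968640, 0, 0, 0, 0] R] M,
    hornerE [horner [407291898082661498880] R,
      horner [338797470227377029120] R,
      horner [-22677495977545688678400] R,
      horner [74425932297019588608000] R,
      horner [-82500302676451826073600] R,
      horner [23652137114186746429440] R] M,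
    hornerE [horner [-839907258427618099200] R,
      horner [8931111875642350632960] R,
      horner [-22000080713720486952960] R,
      horner [12264071096244979630080] R] M,
    hornerE [horner [-500001834402738339840] R,
      horner [876005078303212830720] R] M] S)
    (.neg (.mul (.k (4 * margin)) (.pow R 10)))

/-- The contact factor at the variables. -/
def rowQ0 : E := rowQ (.x 0) (.x 1)

/-- The other factor at the largest squared difference above the half, in the unit. -/
def rowG0 : E := rowG (.x 0) (.x 1) (.mul (.x 2) (.pow (.add (.k 1) (.neg (.x 1))) 2))

/-- The pair row at the largest difference, below the half. -/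
def rowLo : E :=
  .add (.mul (.pow (.add (.x 0) (.mul (.k (-2)) (.x 1))) 2) (rowQ (.x 0) (.x 1)))
    (.mul (.pow (.x 1) 2) (rowG (.x 0) (.x 1) (.mul (.x 2) (.pow (.x 1) 2))))

/-- The pair row at the largest difference, above the half. -/
def rowHi : E :=
  .add (.mul (.pow (.add (.x 0) (.mul (.k (-2)) (.x 1))) 2) (rowQ (.x 0) (.x 1)))
    (.mul (.pow (.add (.k 1) (.neg (.x 1))) 2)
      (rowG (.x 0) (.x 1) (.mul (.x 2) (.pow (.add (.k 1) (.neg (.x 1))) 2))))

end Vale.Agent.P219.CH.Flat.Thirteen
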