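import Vale.Agent.P219.Flat.Profile4
import Vale.Agent.P219.Flat.Thirteen.Rows
import Vale.Agent.P219.Flat.Strict.Profile4

/-!
# P219, dimension thirteen: the pointwise facts of the profile
-/

noncomputable section

namespace Vale.Agent.P219.CH.Flat.Thirteen

open Set Vale.Agent.P219.Poly Vale.Agent.P219.Poly.E

/-- The profile. -/
def prof : Quart.Prof where
  P0 r := ((44322965228979520 : ℝ) * r ^ 0 + (0 : ℝ) * r ^ 1 + (33724547869815885 : ℝ) * r ^ 2 + (-41534845874426880 : ℝ) * r ^ 3 + (183404332484511840 : ℝ) * r ^ 4 + (-171908024153140800 : ℝ) * r ^ 5 + (98009804892902400 : ℝ) * r ^ 6 + (-18463786949197440 : ℝ) * r ^ 7 + (2122512747505920 : ℝ) * r ^ 8) / den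
  D0 r := ((0 : ℝ) * r ^ 0 + (67449095739631770 : ℝ) * r ^ 1 + (-124604537623280640 : ℝ) * r ^ 2 + (733617329938047360 : ℝ) * r ^ 3 + (-859540120765704000 : ℝ) * r ^ 4 + (588058829357414400 : ℝ) * r ^ 5 + (-129246508644382080 : ℝ) * r ^ 6 + (16980101980047360 : ℝ) * r ^ 7) / den
  P2 r := ((-20944679078800108 : ℝ) * r ^ 0 + (249209075246561280 : ℝ) * r ^ 1 + (-930486995933932800 : ℝ) * r ^ 2 + (915215930192136960 : ℝ) * r ^ 3 + (-487875616639856640 : ℝ) * r ^ 4 + (114632803950670080 : ℝ) * r ^ 5 + (-10180710494530560 : ℝ) * r ^ 6) / den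
  D2 r := ((249209075246561280 : ℝ) * r ^ 0 + (-1860973991867865600 : ℝ) * r ^ 1 + (2745647790576410880 : ℝ) * r ^ 2 + (-1951502466559426560 : ℝ) * r ^ 3 + (573164019753350400 : ℝ) * r ^ 4 + (-61084262967183360 : ℝ) * r ^ 5) / den
  P4 r := ((-18465014132236800 : ℝ) * r ^ 0 + (72063460559324160 : ℝ) * r ^ 1) / den
  D4 r := ((72063460559324160 : ℝ) * r ^ 0) / den

/-- The volume coefficient. -/
def beta : ℝ := 31973 / 512

/-- The marginal coefficient. -/
def aCoef (c : ℝ) : ℝ := c * (((0 : ℝ) * c ^ 0 + (-2127502330991016960 : ℝ) * c ^ 1 + (0 : ℝ) * c ^ 2 + (-760615331459005120 : ℝ) * c ^ 3 + (7974690407889960960 : ℝ) * c ^ 4 + (-60630523660946626112 : ℝ) * c ^ 5 + (101822974520665374720 : ℝ) * c ^ 6 + (12099909650977751040 : ℝ) * c ^ 7 + (-209976814606904524800 : ℝ) * c ^ 8 + (248086440990065295360 : ℝ) * c ^ 9 + (-125000458600684584960 : ℝ) * c ^ 10 + (19909206325073018880 : ℝ) * c ^ 11) / den)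

lemma den_pos : (0 : ℝ) < den := by norm_num [den]

/-- The slack of the strict rows. -/
def slack : ℝ := margin / (2 * den)

lemma slack_pos : 0 < slack := by norm_num [slack, margin, den]

lemma smooth_prof : prof.Smooth := by
  refine ⟨fun r => ?_, fun r => ?_, fun r => ?_, ?_, ?_, ?_⟩
  · simp only [prof]
    refine (((((((((((hasDerivAt_pow 0 r).const_mul _).add
      ((hasDerivAt_pow 1 r).const_mul _)).add
      ((hasDerivAt_pow 2 r).const_mul _)).add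
      ((hasDerivAt_pow 3 r).const_mul _)).add
      ((hasDerivAt_pow 4 r).const_mul _)).add
      ((hasDerivAt_pow 5 r).const_mul _)).add
      ((hasDerivAt_pow 6 r).const_mul _)).add
      ((hasDerivAt_pow 7 r).const_mul _)).add
      ((hasDerivAt_pow 8 r).const_mul _)).div_const _).congr_deriv ?_
    push_cast
    ring
  · simp only [prof]
    refine (((((((((hasDerivAt_pow 0 r).const_mul _).add
      ((hasDerivAt_pow 1 r).const_mul _)).add
      ((hasDerivAt_pow 2 r).const_mul _)).add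
      ((hasDerivAt_pow 3 r).const_mul _)).add
      ((hasDerivAt_pow 4 r).const_mul _)).add
      ((hasDerivAt_pow 5 r).const_mul _)).add
      ((hasDerivAt_pow 6 r).const_mul _)).div_const _).congr_deriv ?_
    push_cast
    ring
  · simp only [prof]
    refine ((((hasDerivAt_pow 0 r).const_mul _).add
      ((hasDerivAt_pow 1 r).const_mul _)).div_const _).congr_deriv ?_
    push_cast
    ring
  all_goals
    simp only [prof]
    fun_prop

/-! ## The rows are the facts -/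

lemma sem_rowSym (v : Fin 3 → ℝ) (R C D AC AD : E) (hac : sem v AC = |sem v C|)
    (had : sem v AD = |sem v D|) :
    sem v (rowSym R C D AC AD) = 2 * den * prof.symP 13 (sem v R) (sem v C) (sem v D) := by
  simp only [rowSym, rowKer, rowBase, rowN, rowDN, rowDC, horner, z0, z2, z4, dz0, dz2, dz4, sem,
    hac, had, Quart.Prof.symP, Quart.Prof.symG, Quart.Prof.kerG, Quart.Prof.N, Quart.Prof.dN,
    Quart.Prof.dC, prof, den]
  push_cast
  ring

lemma rim_eq (r : ℝ) : sem ![r, 0, 0] rowRim = den * prof.N r 1 := by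
  simp [rowRim, rowN, horner, z0, z2, z4, sem, Quart.Prof.N, prof, den]
  ring

lemma sl2_eq (r : ℝ) : sem ![r, 0, 0] rowSl2 = den * (-prof.P2 r) := by
  simp [rowSl2, horner, z2, sem, prof, den]
  ring

lemma sl4_eq (r : ℝ) : sem ![r, 0, 0] rowSl4 = den * (-(prof.P2 r + 2 * prof.P4 r)) := by
  simp [rowSl4, rowDC, horner, z2, z4, sem, prof, den]
  ring

lemma mono_eq (r : ℝ) : sem ![r, 0, 0] rowMono = den * (r * prof.D0 r + 3 * prof.P0 r) := by
  simp [rowMono, horner, z0, dz0, sem, prof, den]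
  ring

lemma a_eq (c : ℝ) : c * sem ![0, c, 0] rowA = -(den * aCoef c) := by
  simp [rowA, horner, za, sem, aCoef, den]
  ring

lemma gain_eq (r d z : ℝ) (hd : 0 ≤ d) (hz : 0 ≤ z) :
    sem ![r, d, z] rowGain =
      2 * den * (prof.symP 13 r (d * z) d + 2 * (d * z * d) * prof.N r d -
        slack * r ^ 9) := by
  rw [rowGain, sem, sem, sem, sem_rowSym _ _ _ _ _ _ (by simp [sem, hd, hz, abs_of_nonneg, mul_nonneg])
    (by simp [sem, hd, abs_of_nonneg])]
  simp [rowN, horner, z0, z2, z4, sem, Quart.Prof.N, prof, slack, margin, den]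
  ring

lemma gainB_eq (r d z : ℝ) (hd : 0 ≤ d) (hz : 0 ≤ z) :
    sem ![r, d, z] rowGainB =
      2 * den * (prof.symG 13 r (d * z) d 0 + 2 * (d * z * d) * prof.N r d - slack * r ^ 9) := by
  simp only [rowGainB, rowB, rowBase, rowN, rowDN, horner, z0, z2, z4, dz0, dz2, dz4, sem,
    Quart.Prof.symG, Quart.Prof.kerG, Quart.Prof.N, Quart.Prof.dN, Quart.Prof.dC, prof, slack, margin, den,
    abs_of_nonneg hd, abs_of_nonneg (mul_nonneg hd hz), Matrix.cons_val_zero, Matrix.cons_val_one,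
    Matrix.cons_val]
  push_cast
  ring

lemma gainX_eq (r d z : ℝ) :
    sem ![r, d, z] rowGainX = sem ![r, d, z] rowGainB ^ 2 -
      16 * (den * (d * z * d * (prof.dC r (d * z) + prof.dC r d))) ^ 2 *
        ((1 - (d * z) ^ 2) * (1 - d ^ 2)) := by
  simp only [rowGainX, rowX, rowGainB, sem, rowDC, horner, z2, z4, Quart.Prof.dC, prof, den,
    Matrix.cons_val_zero, Matrix.cons_val_one, Matrix.cons_val]
  push_cast
  ring

lemma mix_eq (r c d : ℝ) (hc : 0 ≤ c) (hd : 0 ≤ d) :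
    sem ![r, c, d] rowMix = 2 * den * (prof.symP 13 r c (-d) - 2 * (c * d) * prof.N r 0 -
      slack * r ^ 9) := by
  rw [rowMix, sem, sem, sem, sem_rowSym _ _ _ _ _ _ (by simp [sem, hc, abs_of_nonneg])
    (by simp [sem, hd, abs_of_nonneg])]
  simp [horner, z0, sem, Quart.Prof.N, prof, slack, margin, den]
  ring

lemma out_eq (r c d : ℝ) (hc : 0 ≤ c) (hd : 0 ≤ d) :
    sem ![r, c, d] rowOut = 2 * den * (prof.symP 13 r (-c) (-d) - slack * r ^ 9) := by
  rw [rowOut, sem, sem_rowSym _ _ _ _ _ _ (by simp [sem, hc, abs_of_nonneg])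
    (by simp [sem, hd, abs_of_nonneg])]
  simp [sem, slack, margin, den]
  ring

/-- Twice `den` times the pair row less the slack. -/
def pairRow (r c d : ℝ) : ℝ :=
  2 * den * (r ^ 3 * prof.symP 13 r c d - (aCoef c * d + aCoef d * c + 2 * beta * (c * d) * r) -
    slack * r ^ 10 * (((r - 2 * c) ^ 2 + (r - 2 * d) ^ 2) / 2))

/-- The pair row splits at the contact. -/
lemma pair_split (r m δ : ℝ) (hc : 0 ≤ m - δ) (hd : 0 ≤ m + δ) :
    pairRow r (m - δ) (m + δ) = (r - 2 * m) ^ 2 * sem ![r, m, 0] (rowQ (.x 0) (.x 1)) +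
      δ ^ 2 * sem ![r, m, δ ^ 2] (rowG (.x 0) (.x 1) (.x 2)) := by
  simp only [pairRow, rowQ, rowG, hornerE, horner, sem, Quart.Prof.symP, Quart.Prof.symG,
    Quart.Prof.kerG, Quart.Prof.N, Quart.Prof.dN, Quart.Prof.dC, prof, aCoef, beta, slack, margin, den, abs_of_nonneg hc, abs_of_nonneg hd, Matrix.cons_val_zero,
    Matrix.cons_val_one, Matrix.cons_val]
  push_cast
  ring

lemma q_eq (r m z : ℝ) :
    sem ![r, m, z] (rowQ (.x 0) (.x 1)) = sem ![r, m, 0] (rowQ (.x 0) (.x 1)) := by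
  simp [rowQ, hornerE, horner, sem]

lemma g_lo_eq (r m w : ℝ) :
    sem ![r, m, w] rowLo = (r - 2 * m) ^ 2 * sem ![r, m, 0] (rowQ (.x 0) (.x 1)) +
      m ^ 2 * sem ![r, m, w * m ^ 2] (rowG (.x 0) (.x 1) (.x 2)) := by
  simp only [rowLo, rowQ, rowG, hornerE, horner, sem, Matrix.cons_val_zero, Matrix.cons_val_one,
    Matrix.cons_val]
  push_cast
  ring

lemma g_hi_eq (r m w : ℝ) :
    sem ![r, m, w] rowHi = (r - 2 * m) ^ 2 * sem ![r, m, 0] (rowQ (.x 0) (.x 1)) +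
      (1 - m) ^ 2 * sem ![r, m, w * (1 - m) ^ 2] (rowG (.x 0) (.x 1) (.x 2)) := by
  simp only [rowHi, rowQ, rowG, hornerE, horner, sem, Matrix.cons_val_zero, Matrix.cons_val_one,
    Matrix.cons_val]
  push_cast
  ring

lemma g_corner_eq (r m w : ℝ) :
    sem ![r, m, w] rowG0 =
      sem ![r, m, w * (1 - m) ^ 2] (rowG (.x 0) (.x 1) (.x 2)) := by
  simp only [rowG0, rowG, hornerE, horner, sem, Matrix.cons_val_zero, Matrix.cons_val_one, Matrix.cons_val]
  push_cast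
  ring

/-- A combination of two nonnegative rows. -/
lemma combine {D G δ d : ℝ} (hδ : δ ^ 2 ≤ d ^ 2) (hD : 0 ≤ D) (hH : 0 ≤ D + d ^ 2 * G) :
    0 ≤ D + δ ^ 2 * G := by
  rcases le_or_gt 0 G with h | h
  · exact add_nonneg hD (mul_nonneg (sq_nonneg δ) h)
  · have := mul_le_mul_of_nonpos_right hδ h.le
    linarith

lemma pairRow_nonneg {r c d : ℝ} (hr : 0 < r) (hc : c ∈ Icc (0 : ℝ) 1) (hd : d ∈ Icc (0 : ℝ) 1) :
    0 ≤ pairRow r c d := by
  obtain ⟨m, hm⟩ : ∃ m, m = (c + d) / 2 := ⟨_, rfl⟩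
  obtain ⟨δ, hδ⟩ : ∃ δ, δ = (d - c) / 2 := ⟨_, rfl⟩
  have ec : c = m - δ := by rw [hm, hδ]; ring
  have ed : d = m + δ := by rw [hm, hδ]; ring
  rw [ec, ed, pair_split r m δ (ec ▸ hc.1) (ed ▸ hd.1)]
  have hm0 : m ∈ Icc (0 : ℝ) 1 := ⟨by linarith [hc.1, hd.1], by linarith [hc.2, hd.2]⟩
  have hD : 0 ≤ (r - 2 * m) ^ 2 * sem ![r, m, 0] (rowQ (.x 0) (.x 1)) :=
    mul_nonneg (sq_nonneg _) (q_nonneg hr.le hm0 ⟨le_rfl, zero_le_one⟩ : 0 ≤ sem ![r, m, 0] rowQ0)
  have unit : ∀ D : ℝ, δ ^ 2 ≤ D ^ 2 → δ ^ 2 / D ^ 2 ∈ Icc (0 : ℝ) 1 ∧ δ ^ 2 / D ^ 2 * D ^ 2 = δ ^ 2 :=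
    fun D hD => by
      refine ⟨⟨by positivity, div_le_one_of_le₀ hD (sq_nonneg D)⟩, ?_⟩
      rcases eq_or_ne (D ^ 2) 0 with h | h
      · rw [h] at hD ⊢
        simp [le_antisymm hD (sq_nonneg δ)]
      · exact div_mul_cancel₀ _ h
  rcases le_total m (1 / 2) with h | h
  · have hδm : δ ^ 2 ≤ m ^ 2 := sq_le_sq.2 (by
      rw [abs_of_nonneg hm0.1, abs_le]; constructor <;> linarith [hc.1, hd.1])
    obtain ⟨hw, hw'⟩ := unit m hδm
    have h1 := lo_nonneg (r := r) hr.le ⟨hm0.1, h⟩ hw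
    rw [g_lo_eq, hw'] at h1
    exact combine hδm hD h1
  · have hδm : δ ^ 2 ≤ (1 - m) ^ 2 := sq_le_sq.2 (by
      rw [abs_of_nonneg (by linarith [hm0.2] : 0 ≤ 1 - m), abs_le]
      constructor <;> linarith [hc.2, hd.2])
    obtain ⟨hw, hw'⟩ := unit (1 - m) hδm
    rcases hi_nonneg (r := r) hr.le ⟨h, hm0.2⟩ hw with h1 | h1
    · rw [g_hi_eq, hw'] at h1
      exact combine hδm hD h1
    · rw [g_corner_eq, hw'] at h1
      exact add_nonneg hD (mul_nonneg (sq_nonneg δ) h1)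

lemma slopes {r : ℝ} (hr : 0 ≤ r) : prof.P2 r ≤ 0 ∧ prof.P2 r + 2 * prof.P4 r ≤ 0 := by
  have h0 : (0 : ℝ) ∈ Icc (0 : ℝ) 1 := ⟨le_rfl, zero_le_one⟩
  have h2 := sl2_nonneg (r := r) hr h0 h0
  have h4 := sl4_nonneg (r := r) hr h0 h0
  rw [sl2_eq] at h2
  rw [sl4_eq] at h4
  exact ⟨neg_nonneg.1 (nonneg_of_mul_nonneg_right h2 den_pos),
    neg_nonneg.1 (nonneg_of_mul_nonneg_right h4 den_pos)⟩

lemma gain_unit {r d z : ℝ} (hr : 0 ≤ r) (hd : d ∈ Icc (0 : ℝ) 1) (hz : z ∈ Icc (0 : ℝ) 1) :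
    0 ≤ prof.symX 13 r (d * z) d + 2 * (d * z * d) * prof.N r d - slack * r ^ 9 := by
  have hc : d * z ∈ Icc (-1 : ℝ) 1 :=
    ⟨by linarith [mul_nonneg hd.1 hz.1], mul_le_one₀ hd.2 hz.1 hz.2⟩
  have hd' : d ∈ Icc (-1 : ℝ) 1 := ⟨by linarith [hd.1], hd.2⟩
  refine nonneg_of_mul_nonneg_right ?_ (mul_pos two_pos den_pos)
  rcases gain_nonneg hr hd hz with h | ⟨hB, hX⟩
  · rw [gain_eq r d z hd.1 hz.1] at h
    have hC : ∀ x ∈ Icc (-1 : ℝ) 1, prof.dC r x ≤ 0 := fun x hx => by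
      obtain ⟨h1, h2⟩ := slopes hr
      have := mul_nonpos_of_nonneg_of_nonpos (Relax.Five.one_sub_sq_nonneg hx) h1
      have := mul_nonpos_of_nonneg_of_nonpos (sq_nonneg x) h2
      simp only [Quart.Prof.dC]
      linarith
    refine h.trans (mul_le_mul_of_nonneg_left ?_ (mul_pos two_pos den_pos).le)
    linarith [prof.symP_le_symX_of (n := 13) hc hd' (hC _ hc) (hC _ hd')]
  · obtain ⟨s, hs⟩ : ∃ s, s = Real.sqrt (1 - (d * z) ^ 2) * Real.sqrt (1 - d ^ 2) := ⟨_, rfl⟩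
    have hs2 : s ^ 2 = (1 - (d * z) ^ 2) * (1 - d ^ 2) := by
      rw [hs, mul_pow, Real.sq_sqrt (Relax.Five.one_sub_sq_nonneg hc),
        Real.sq_sqrt (Relax.Five.one_sub_sq_nonneg hd')]
    obtain ⟨V, hV⟩ : ∃ V, V = 4 * (den * (d * z * d * (prof.dC r (d * z) + prof.dC r d))) * s :=
      ⟨_, rfl⟩
    rw [gainX_eq, ← hs2] at hX
    have hsq : V ^ 2 ≤ sem ![r, d, z] rowGainB ^ 2 := by
      rw [hV]
      linarith
    have h1 := (abs_le_of_sq_le_sq' hsq hB).1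
    rw [gainB_eq r d z hd.1 hz.1, hV] at h1
    simp only [Quart.Prof.symX, ← hs, Quart.Prof.symG, Quart.Prof.kerG, abs_of_nonneg hd.1,
      abs_of_nonneg (mul_nonneg hd.1 hz.1)] at h1 ⊢
    linarith

lemma mixed_fact {r c d : ℝ} (hr : 0 < r) (hc : c ∈ Icc (0 : ℝ) 1) (hd : d ∈ Icc (0 : ℝ) 1) :
    2 * (c * d) * prof.N r 0 + slack * r ^ 9 ≤ prof.symP 13 r c (-d) := by
  have h := mix_nonneg (r := r) hr.le hc hd
  rw [mix_eq r c d hc.1 hd.1] at h
  linarith [nonneg_of_mul_nonneg_right h (mul_pos two_pos den_pos)]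

lemma outward_fact {r c d : ℝ} (hr : 0 < r) (hc : c ∈ Icc (0 : ℝ) 1) (hd : d ∈ Icc (0 : ℝ) 1) :
    slack * r ^ 9 ≤ prof.symP 13 r (-c) (-d) := by
  have h := out_nonneg (r := r) hr.le hc hd
  rw [out_eq r c d hc.1 hd.1] at h
  linarith [nonneg_of_mul_nonneg_right h (mul_pos two_pos den_pos)]

lemma pair_fact {r c d : ℝ} (hr : 0 < r) (hc : c ∈ Icc (0 : ℝ) 1) (hd : d ∈ Icc (0 : ℝ) 1) :
    aCoef c * d + aCoef d * c + 2 * beta * (c * d) * r +
        slack * r ^ 10 * (((r - 2 * c) ^ 2 + (r - 2 * d) ^ 2) / 2) ≤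
      r ^ 3 * prof.symP 13 r c d := by
  linarith [nonneg_of_mul_nonneg_right (pairRow_nonneg hr hc hd) (mul_pos two_pos den_pos)]

lemma gain_fact {r c d : ℝ} (hr : 0 < r) (hc : 0 ≤ c) (hcd : c ≤ d) (hd : d ≤ 1) :
    slack * r ^ 9 ≤ prof.symX 13 r c d + 2 * (c * d) * prof.N r d := by
  obtain ⟨z, hz, e⟩ : ∃ z ∈ Icc (0 : ℝ) 1, c = d * z := by
    rcases (hc.trans hcd).eq_or_lt with h | h
    · exact ⟨0, ⟨le_rfl, zero_le_one⟩, by rw [← h]; linarith⟩
    · exact ⟨c / d, ⟨div_nonneg hc h.le, (div_le_one h).2 hcd⟩, (mul_div_cancel₀ c h.ne').symm⟩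
  rw [e]
  exact sub_nonneg.1 (gain_unit hr.le ⟨hc.trans hcd, hd⟩ hz)

lemma facts : Quart.Facts 13 aCoef beta prof where
  rim r hr := by
    have h := rim_nonneg (r := r) (y := 0) (z := 0) hr.le ⟨le_rfl, zero_le_one⟩ ⟨le_rfl, zero_le_one⟩
    rw [rim_eq] at h
    exact nonneg_of_mul_nonneg_right h den_pos
  slope r hr := slopes hr.le
  gain r hr c d hc hcd hd := by
    linarith [gain_fact hr hc hcd hd, mul_nonneg slack_pos.le (pow_nonneg hr.le 9)]
  mixed r hr c hc d hd := by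
    linarith [mixed_fact hr hc hd, mul_nonneg slack_pos.le (pow_nonneg hr.le 9)]
  outward r hr c hc d hd := by
    linarith [outward_fact hr hc hd, mul_nonneg slack_pos.le (pow_nonneg hr.le 9)]
  mono := by
    have hd : ∀ r : ℝ, HasDerivAt (fun x => x ^ 3 * prof.P0 x)
        (r ^ 2 * (r * prof.D0 r + 3 * prof.P0 r)) r := fun r => by
      refine ((hasDerivAt_pow 3 r).mul (smooth_prof.deriv0 r)).congr_deriv ?_
      push_cast
      ring
    refine monotoneOn_of_hasDerivWithinAt_nonneg (convex_Ioi 0)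
      (fun r _ => (hd r).continuousAt.continuousWithinAt) (fun r _ => (hd r).hasDerivWithinAt)
      fun r hr => ?_
    rw [interior_Ioi, mem_Ioi] at hr
    have h := mono_nonneg (r := r) (y := 0) (z := 0) hr.le ⟨le_rfl, zero_le_one⟩
      ⟨le_rfl, zero_le_one⟩
    rw [mono_eq] at h
    exact mul_nonneg (sq_nonneg r) (nonneg_of_mul_nonneg_right h den_pos)
  pair r hr c hc d hd := by
    have := mul_nonneg (mul_nonneg slack_pos.le (pow_nonneg hr.le 10))
      (show 0 ≤ ((r - 2 * c) ^ 2 + (r - 2 * d) ^ 2) / 2 by positivity)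
    simp only [Nat.reduceSub]
    linarith [pair_fact hr (Ioc_subset_Icc_self hc) (Ioc_subset_Icc_self hd)]

/-- The margins of the facts. -/
lemma margins : Quart.Margins 13 aCoef beta slack prof where
  gain r hr c d hc hcd hd := gain_fact hr hc hcd hd
  mixed r hr c hc d hd := mixed_fact hr hc hd
  outward r hr c hc d hd := outward_fact hr hc hd
  pair r hr c hc d hd := pair_fact hr (Ioc_subset_Icc_self hc) (Ioc_subset_Icc_self hd)

lemma aCoef_nonpos {c : ℝ} (hc : c ∈ Icc (0 : ℝ) 1) : aCoef c ≤ 0 := by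
  have h := aRow_nonneg (r := 0) (y := c) (z := 0) ⟨le_rfl, zero_le_one⟩ hc ⟨le_rfl, zero_le_one⟩
  have h1 := mul_nonneg hc.1 h
  rw [a_eq, ← mul_neg] at h1
  exact neg_nonneg.1 (nonneg_of_mul_nonneg_right h1 den_pos)

end Vale.Agent.P219.CH.Flat.Thirteen
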